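import Vale.Agent.P153.R2.KPOS.H61.Bump
import Vale.Agent.P153.R2.KPOS.H397.TV
import Vale.Agent.P153.R2.KPOS.H469.DensQ

/-!
# P153-R2, KPOS, block FLAT: flatness at dyadic fine scales
-/

namespace Vale.Agent.P153.R2.KPOS.H61

open Set Relation MeasureTheory
open Vale.Agent.P153 Vale.Agent.P153.R2
open Vale.Agent.P153.Topo (Conn adj_symm)
open Vale.Agent.P153.A (Om)
open Vale.Agent.P153.F.X (evT massT)
open Vale.Agent.P153.F.RSW (Ann)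
open Vale.Agent.P153.R2.KPOS.Tr
open Vale.Agent.P153.R2.KPOS.TV (esc)
open Vale.Agent.P153.R2.KPOS.H469 (FineS)
open scoped Classical

variable {W V : Set Pt} {h : Hg} {u : Pt →₀ ℝ}

/-- The open cluster of level `0` against `ClZ`. -/
theorem esc_sub {B : Set Pt} (hE : ∃ y ∈ CluL 0 B h, y ∉ V) : ∃ x ∈ B, x ∈ ClZ Vᶜ h := by
  obtain ⟨y, ⟨x, hx, hxy⟩, hy⟩ := hE
  refine ⟨x, hx, y, hy, ?_⟩
  have hsw : ∀ a b, OpL 0 h a b → OpZ h b a := by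
    rintro a b ⟨h1, h2⟩
    refine ⟨adj_symm h1, fun h3 => h2 ?_⟩
    rw [sub_zero, sub_zero]
    exact ⟨h3.2, h3.1⟩
  have key : ∀ y, ReflTransGen (OpL 0 h) x y → ReflTransGen (OpZ h) y x := by
    intro y hy
    induction hy with
    | refl => exact ReflTransGen.refl
    | @tail b c _ hbc ih => exact ReflTransGen.head (hsw b c hbc) ih
  exact key y hxy

/-- Escape of the open clusters of level `0`, from the class `8ℤ` and the second moment. -/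
theorem esc_le (hW : W.Finite) {z : Pt} {r1 r2 : ℤ} (hbW : bx z r2 ⊆ W) (hm : massT u = 1)
    (hs : ∀ v ∈ u.support, v ∈ bx z (r1 - 1)) :
    esc W (bx z r2) (bx z r1) ≤
      Pr (Cfg W (frd W 0)) {h | ∃ x ∈ bx z r1, x ∈ ClC (bx z r2)ᶜ h} +
        1 / 64 * Ex (Cfg W (frd W 0)) (fun h => evT u h ^ 2) :=
  (Pr_mono fun _ _ hh => esc_sub hh).trans (open0_box hW hbW hm hs)

/-- Flatness at the dyadic fine scales. -/
def Fl (Q : Measure Om) : Prop := ∀ c : ℝ, 0 < c → ∀ B : ℕ, ∀ ε : ℝ, 0 < ε → ∃ g0 : ℕ, ∀ g, g0 ≤ g →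
  FineS Q c g → ∀ n : ℤ, 0 ≤ n → n ≤ 2 ^ g → (2 : ℤ) ^ g ≤ 2 ^ B * (2 * n + 1) → ∀ V : Set Pt,
  bx 0 n ⊆ V → V ⊆ bx 0 (2 ^ g - 2) → Ex (Cfg V (frd V 0)) (fun h => evT (bump 0 n) h ^ 2) ≤ ε

/-- **F3 with the quantifiers of the chain.** -/
theorem Fl.esc {Q : Measure Om} (hQ : Fl Q) {c : ℝ} (hc : 0 < c) (B : ℕ) {ε : ℝ} (hε : 0 < ε) :
    ∃ m0 : ℕ, ∀ m g : ℕ, m0 ≤ m → m ≤ g → g ≤ m + B → FineS Q c g → ∀ r1 r2 : ℤ, 2 ^ m ≤ r1 →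
      2 ^ m ≤ r2 + 1 → ∀ V : Set Pt, bx 0 r2 ⊆ V → V ⊆ bx 0 (2 ^ g - 2) → TV.esc V (bx 0 r2) (bx 0 r1) ≤
        Pr (Cfg V (frd V 0)) {h | ∃ x ∈ bx 0 r1, x ∈ ClC (bx 0 r2)ᶜ h} + ε := by
  obtain ⟨g0, h0⟩ := hQ c hc (B + 1) ε hε
  refine ⟨g0, fun m g hm hmg hgB hF r1 r2 hr hr2 V hV1 hV2 => ?_⟩
  have hVf : V.Finite := (PLAN.bx_finite _ _).subset hV2
  have e1 : (2 : ℤ) ^ g ≤ 2 ^ (B + m) := pow_le_pow_right₀ (by norm_num) (by omega)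
  have e2 : (2 : ℤ) ^ m ≤ 2 ^ g := pow_le_pow_right₀ (by norm_num) hmg
  have e3 : (1 : ℤ) ≤ 2 ^ m := one_le_pow₀ (by norm_num)
  have h1 := h0 g (hm.trans hmg) hF (2 ^ m - 1) (by omega) (by omega) (by
    refine e1.trans ?_
    rw [pow_add, pow_succ, mul_assoc]
    exact mul_le_mul_of_nonneg_left (by omega) (by positivity)) V
    ((PLAN.bx_mono (by omega)).trans hV1) hV2
  have h2 := esc_le (u := bump 0 (2 ^ m - 1)) (r1 := r1) hVf hV1 (bump_mass 0 (by omega))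
    fun v hv => ?_
  · have h3 : 1 / 64 * Ex (Cfg V (frd V 0)) (fun h => evT (bump 0 (2 ^ m - 1)) h ^ 2) ≤ ε := by
      have := Ex_nonneg (S := Cfg V (frd V 0)) (F := fun h => evT (bump 0 (2 ^ m - 1)) h ^ 2)
        fun _ _ => sq_nonneg _
      linarith
    linarith
  · exact PLAN.bx_mono (by omega) (bump_supp _ _ hv)

/-- **F2 with the quantifiers of the chain.** -/
theorem Fl.null {Q : Measure Om} (hQ : Fl Q) {c : ℝ} (hc : 0 < c) (B : ℕ) {ε : ℝ} (hε : 0 < ε) :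
    ∃ j0 : ℕ, ∀ j g : ℕ, j0 ≤ j → j ≤ g → g ≤ j + B → FineS Q c g →
      ∀ V : Set Pt, bx 0 (24 * 2 ^ j) ⊆ V → V ⊆ bx 0 (2 ^ g - 2) →
        Pr (Cfg V (frd V 0)) {h | Ann 0 0 (6 * 2 ^ j) {x | 1 ≤ h x}} ≤ ε := by
  obtain ⟨g0, h0⟩ := hQ c hc B ε hε
  refine ⟨g0, fun j g hj hjg hgB hF V hV1 hV2 => ?_⟩
  have hVf : V.Finite := (PLAN.bx_finite _ _).subset hV2
  have e1 : (2 : ℤ) ^ g ≤ 2 ^ (B + j) := pow_le_pow_right₀ (by norm_num) (by omega)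
  have e3 : (1 : ℤ) ≤ 2 ^ j := one_le_pow₀ (by norm_num)
  have e2 : (24 : ℤ) * 2 ^ j ≤ 2 ^ g - 2 := by
    have h1 : ((24 * 2 ^ j, 0) : Pt) ∈ bx (0 : Pt) (2 ^ g - 2) := by
      refine hV2 (hV1 ⟨?_, ?_⟩)
      · show |(24 * 2 ^ j : ℤ) - 0| ≤ _
        rw [sub_zero, abs_of_nonneg (by positivity)]
      · show |(0 : ℤ) - 0| ≤ _
        rw [sub_zero, abs_zero]
        positivity
    have h2 : |(24 * 2 ^ j : ℤ) - 0| ≤ 2 ^ g - 2 := h1.1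
    rw [sub_zero] at h2
    exact (le_abs_self _).trans h2
  have h1 := h0 g (hj.trans hjg) hF (12 * 2 ^ j - 1) (by omega) (by omega) (by
    refine e1.trans ?_
    rw [pow_add]
    exact mul_le_mul_of_nonneg_left (by omega) (by positivity)) V
    ((PLAN.bx_mono (by omega)).trans hV1) hV2
  refine (null_Ann hVf (a := 0) (b := 0) (t := 6 * 2 ^ j) (by positivity) ?_ (bump_nonneg _ _)
    (bump_mass 0 (n := 12 * 2 ^ j - 1) (by omega)) fun v hv => ?_).trans h1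
  · have e4 : (4 * (6 * 2 ^ j) : ℤ) = 24 * 2 ^ j := by ring
    rw [e4]
    exact hV1
  · have := bump_supp _ _ hv
    have e4 : (2 * (6 * 2 ^ j) - 1 : ℤ) = 12 * 2 ^ j - 1 := by ring
    rw [e4]
    exact this

end Vale.Agent.P153.R2.KPOS.H61
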