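import Vale.Agent.P153.R2.KPOS.H61.Lev

/-!
# P153-R2, KPOS, block FLAT: the uniform weight on a box
-/

namespace Vale.Agent.P153.R2.KPOS.H61

open Set
open Vale.Agent.P153 Vale.Agent.P153.R2
open Vale.Agent.P153.F.X (evT massT)
open scoped Classical

/-- The box as a finite set. -/
noncomputable def bxF (z : Pt) (n : ℤ) : Finset Pt :=
  Finset.Icc (z.1 - n) (z.1 + n) ×ˢ Finset.Icc (z.2 - n) (z.2 + n)

theorem mem_bxF {z v : Pt} {n : ℤ} : v ∈ bxF z n ↔ v ∈ bx z n := by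
  unfold bxF
  rw [Finset.mem_product, Finset.mem_Icc, Finset.mem_Icc]
  constructor
  · rintro ⟨h1, h2⟩
    exact ⟨abs_le.2 ⟨by omega, by omega⟩, abs_le.2 ⟨by omega, by omega⟩⟩
  · rintro ⟨h1, h2⟩
    rw [abs_le] at h1 h2
    omega

theorem card_bxF (z : Pt) {n : ℤ} (hn : 0 ≤ n) : ((bxF z n).card : ℝ) = (2 * n + 1) ^ 2 := by
  unfold bxF
  rw [Finset.card_product, Int.card_Icc, Int.card_Icc]
  have h1 : (((z.1 + n + 1 - (z.1 - n)).toNat : ℕ) : ℝ) = 2 * n + 1 := by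
    have : (((z.1 + n + 1 - (z.1 - n)).toNat : ℕ) : ℤ) = 2 * n + 1 := by
      rw [Int.toNat_of_nonneg (by omega)]
      ring
    exact_mod_cast this
  have h2 : (((z.2 + n + 1 - (z.2 - n)).toNat : ℕ) : ℝ) = 2 * n + 1 := by
    have : (((z.2 + n + 1 - (z.2 - n)).toNat : ℕ) : ℤ) = 2 * n + 1 := by
      rw [Int.toNat_of_nonneg (by omega)]
      ring
    exact_mod_cast this
  push_cast
  rw [h1, h2]
  ring

/-- The uniform weight on the box. -/
noncomputable def bump (z : Pt) (n : ℤ) : Pt →₀ ℝ :=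
  Finsupp.onFinset (bxF z n) (fun v => if v ∈ bxF z n then 1 / (2 * (n : ℝ) + 1) ^ 2 else 0)
    fun v hv => by
      by_contra h
      exact hv (if_neg h)

theorem bump_apply (z : Pt) (n : ℤ) (v : Pt) :
    bump z n v = if v ∈ bxF z n then 1 / (2 * (n : ℝ) + 1) ^ 2 else 0 := rfl

theorem bump_nonneg (z : Pt) (n : ℤ) (v : Pt) : 0 ≤ bump z n v := by
  rw [bump_apply]
  split_ifs
  · positivity
  · exact le_rfl

theorem bump_le (z : Pt) (n : ℤ) (v : Pt) : bump z n v ≤ 1 / (2 * (n : ℝ) + 1) ^ 2 := by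
  rw [bump_apply]
  split_ifs
  · exact le_rfl
  · positivity

theorem bump_supp (z : Pt) (n : ℤ) {v : Pt} (hv : v ∈ (bump z n).support) : v ∈ bx z n := by
  rw [← mem_bxF]
  by_contra h
  rw [Finsupp.mem_support_iff, bump_apply, if_neg h] at hv
  exact hv rfl

theorem bump_mass (z : Pt) {n : ℤ} (hn : 0 ≤ n) : massT (bump z n) = 1 := by
  have hn' : (0 : ℝ) ≤ n := by exact_mod_cast hn
  unfold massT
  rw [Finsupp.sum_of_support_subset (bump z n) (s := bxF z n)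
    (fun v hv => mem_bxF.2 (bump_supp z n hv)) _ fun _ _ => rfl]
  calc ∑ v ∈ bxF z n, bump z n v = ∑ _v ∈ bxF z n, 1 / (2 * (n : ℝ) + 1) ^ 2 :=
        Finset.sum_congr rfl fun v hv => by rw [bump_apply, if_pos hv]
    _ = 1 := by
        rw [Finset.sum_const, nsmul_eq_mul, card_bxF z hn]
        have : (2 * (n : ℝ) + 1) ^ 2 ≠ 0 := by positivity
        field_simp

end Vale.Agent.P153.R2.KPOS.H61
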