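import Vale.Agent.P153.R2.KPOS.H61.Glue
import Vale.Agent.P153.Bd5.B27

/-!
# P153-R2, KPOS: the mass of the circuit event at a fine scale
-/

set_option autoImplicit false

namespace Vale.Agent.P153.R2.KPOS.H61

open Set MeasureTheory
open Vale.Agent.P153 Vale.Agent.P153.F.RSW Vale.Agent.P153.F.X Vale.Agent.P153.F.X.PosT
open Vale.Agent.P153.A (rc)

theorem fine_II {Q : Measure A.Om} (hQ : A.IsQ Q) (hint : S_int (Q.map rc)) {c : ℝ} {p : Pt} {r : ℤ}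
    (hr : 0 < r) (h : c ≤ pW Q (Ann p.1 p.2 r)) : c ≤ II (Q.map rc) (F.X.ind (Zr p r)) (fun _ => 1) := by
  have := hQ.prob
  obtain ⟨e1, e2⟩ := II_E hint (E' := Zr p r) (IL_Ann p.1 p.2 r).2 (fun B => Iff.rfl)
    (not_ann _ _ _)
  rw [e1, ← ENNReal.ofReal_le_iff_le_toReal e2]
  exact (ENNReal.ofReal_le_ofReal h).trans
    (muT_ge hQ (IL_Ann _ _ _) fun S lev hl hA => Ann.lev hl hr hA)

end Vale.Agent.P153.R2.KPOS.H61
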