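import Vale.Agent.P153.R2.KPOS.H61.Glue
import Vale.Agent.P153.R2.KPOS.H348.Flat

/-!
# P153-R2, KPOS: flatness at the dyadic fine scales, from `κ' = 0`
-/

set_option autoImplicit false

namespace Vale.Agent.P153.R2.KPOS.H61

open Set MeasureTheory
open Vale.Agent.P153 Vale.Agent.P153.R2
open Vale.Agent.P153.GFF (Plane SpecOut)
open Vale.Agent.P153.A (IsQ rc)
open Vale.Agent.P153.F.X (evT massT S_int)
open Vale.Agent.P153.R2.KPOS.H469 (FineS)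
open scoped Classical

/-- **Flatness** at the fine scales. -/
theorem fl {Q : Measure A.Om} (hQ : IsQ Q) (hP : Plane (Q.map rc)) (hS : SpecOut (Q.map rc) 0)
    (hint : S_int (Q.map rc)) : Fl Q := by
  intro c hc B ε hε
  obtain ⟨s0, hs1, hs⟩ := H348.flat_Ex hP hS hint (K := 4 ^ B) (by positivity) hc hε
  refine ⟨s0.toNat, fun g hg hF n hn hng hgB V hV1 hV2 => ?_⟩
  have hVf : V.Finite := (PLAN.bx_finite _ _).subset hV2
  have e1 : (s0 : ℤ) ≤ 2 ^ g := by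
    have h1 : s0 ≤ s0.toNat := Int.self_le_toNat _
    have h2 : (s0.toNat : ℤ) ≤ g := by exact_mod_cast hg
    have h3 : (g : ℤ) ≤ 2 ^ g := by exact_mod_cast Nat.lt_two_pow_self.le
    omega
  have e2 : (1 : ℤ) ≤ 2 ^ g := one_le_pow₀ (by norm_num)
  have hI := H348.zr_ge hQ hint (c := c) (r := 2 ^ g) e2 (p := 0) (by
    have := hF.1 0 0
    push_cast at this
    exact this)
  have key := hs (2 ^ g) e1 0 hI V hVf hV2 (bump 0 n) (fun v => ⟨bump_nonneg _ _ _, ?_⟩)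
    (fun v hv => hV1 (bump_supp _ _ (Finsupp.mem_support_iff.2 hv))) (fun v hv => ?_)
  · exact key
  · refine (bump_le _ _ _).trans ?_
    have h1 : (2 : ℝ) ^ g ≤ 2 ^ B * (2 * n + 1) := by exact_mod_cast hgB
    have h2 : (0 : ℝ) ≤ n := by exact_mod_cast hn
    push_cast
    rw [div_le_div_iff₀ (by positivity) (by positivity), one_mul]
    calc ((2 : ℝ) ^ g) ^ 2 ≤ (2 ^ B * (2 * n + 1)) ^ 2 := pow_le_pow_left₀ (by positivity) h1 2
      _ = 4 ^ B * (2 * n + 1) ^ 2 := by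
        rw [mul_pow, ← pow_mul, mul_comm B 2, pow_mul]
        norm_num
  · obtain ⟨h1, h2⟩ := bump_supp _ _ (Finsupp.mem_support_iff.2 hv)
    have h3 : (1 : ℝ) ≤ 4 ^ B := one_le_pow₀ (by norm_num)
    have h4 : ((n : ℤ) : ℝ) ≤ ((2 ^ g : ℤ) : ℝ) := by exact_mod_cast hng
    have h5 : (0 : ℝ) ≤ ((2 ^ g : ℤ) : ℝ) := by positivity
    have h6 : ((2 ^ g : ℤ) : ℝ) ≤ 4 ^ B * ((2 ^ g : ℤ) : ℝ) := le_mul_of_one_le_left h5 h3
    rw [← Int.cast_abs, ← Int.cast_abs]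
    constructor
    · have : ((|v.1 - (0 : Pt).1| : ℤ) : ℝ) ≤ n := by exact_mod_cast h1
      linarith
    · have : ((|v.2 - (0 : Pt).2| : ℤ) : ℝ) ≤ n := by exact_mod_cast h2
      linarith

/-- **Flatness** at the fine scales, from the plane hypotheses with `κ' = 0`. -/
theorem fl0 {Q : Measure A.Om} (hQ : IsQ Q) (hP : Plane (Q.map rc)) (hS : SpecOut (Q.map rc) 0) :
    Fl Q :=
  fl hQ hP hS (F.X.s_int hP)

/-- The same for the weight of the box `bx 0 (2 ^ m)`. -/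
theorem Fl.pow {Q : Measure A.Om} (hF : Fl Q) : ∀ c : ℝ, 0 < c → ∀ (B : ℕ) (ε : ℝ), 0 < ε →
    ∃ m0 : ℕ, ∀ m g' : ℕ, m0 ≤ m → m ≤ g' → g' < m + B → FineS Q c g' → ∀ V : Set Pt,
      bx 0 (2 ^ m) ⊆ V → V ⊆ bx 0 (2 ^ g' - 2) →
        Ex (Cfg V (frd V 0)) (fun h => evT (bump 0 (2 ^ m)) h ^ 2) ≤ ε := by
  intro c hc B ε hε
  obtain ⟨g0, h0⟩ := hF c hc B ε hε
  refine ⟨g0, fun m g hm hmg hgB hfs V hV1 hV2 => h0 g (hm.trans hmg) hfs (2 ^ m) (by positivity)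
    (pow_le_pow_right₀ (by norm_num) hmg) ?_ V hV1 hV2⟩
  have e1 : (2 : ℤ) ^ g ≤ 2 ^ (B + m) := pow_le_pow_right₀ (by norm_num) (by omega)
  have e2 : (1 : ℤ) ≤ 2 ^ m := one_le_pow₀ (by norm_num)
  refine e1.trans ?_
  rw [pow_add]
  exact mul_le_mul_of_nonneg_left (by omega) (by positivity)

end Vale.Agent.P153.R2.KPOS.H61
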