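import Vale.Agent.P153.R2.KPOS.H61.Glue
import Vale.Agent.P153.R2.KPOS.H460.Asm

/-!
# P153-R2, KPOS: the fields `lev` and `null` of `H460.Inp` from flatness at the fine scales
-/

set_option autoImplicit false

namespace Vale.Agent.P153.R2.KPOS.H61

open Set Relation MeasureTheory
open Vale.Agent.P153 Vale.Agent.P153.R2
open Vale.Agent.P153.Topo (Conn adj_symm)
open Vale.Agent.P153.A (Om)
open Vale.Agent.P153.F.X (evT massT)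
open Vale.Agent.P153.F.RSW (Ann)
open Vale.Agent.P153.R2.KPOS.Tr
open Vale.Agent.P153.R2.KPOS.H469 (FineS)
open Vale.Agent.P153.R2.KPOS.H460 (Dn lx Hx Hx_sub sub_Hx pow_le pow_add_le)
open scoped Classical

variable {W : Set Pt} {h : Hg} {u : Pt →₀ ℝ}

/-- A closed circuit of the class, but an open crossing at level `0`: the level is not `0`. -/
theorem lev_pr (hW : W.Finite) {z : Pt} {r1 r2 : ℤ} (hbW : bx z r2 ⊆ W) (hm : massT u = 1)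
    (hs : ∀ v ∈ u.support, v ∈ bx z (r1 - 1)) :
    Pr (Cfg W (frd W 0)) {h | (∀ x ∈ bx z r1, x ∉ ClC (bx z r2)ᶜ h) ∧
      ∃ y ∈ CluL 0 (bx z r1) h, y ∉ bx z r2} ≤
        1 / 64 * Ex (Cfg W (frd W 0)) (fun h => evT u h ^ 2) := by
  have h1 := lev_ne (u := u) (T := (bx z r2)ᶜ) (K := bx z r1) hW (by rwa [compl_compl]) hm ?_
  · have h2 : Pr (Cfg W (frd W 0)) {h | (∀ x ∈ bx z r1, x ∉ ClC (bx z r2)ᶜ h) ∧
        ∃ y ∈ CluL 0 (bx z r1) h, y ∉ bx z r2} ≤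
          Pr (Cfg W (frd W 0)) (Bp (bx z r2)ᶜ (bx z r1) fun L => L ≠ 0) := by
      refine Pr_mono fun h hh hE => ?_
      obtain ⟨L, hL, h4⟩ := exists_level (PLAN.cn_compl_bx z r2) (PLAN.cn_bx z r1)
        (by rwa [compl_compl]) hh hE.1
      refine ⟨hE.1, L, ?_, hL, h4⟩
      rintro rfl
      obtain ⟨x, hx, hxZ⟩ := esc_sub hE.2
      exact ClZ_of_lev hE.1 h4 x hx hxZ
    linarith
  · intro v hv
    obtain ⟨h1, h2⟩ := hs v hv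
    rw [abs_le] at h1 h2
    refine ⟨⟨abs_le.2 ⟨by omega, by omega⟩, abs_le.2 ⟨by omega, by omega⟩⟩, fun y hxy => ?_⟩
    rw [Topo.adj_iff] at hxy
    refine ⟨abs_le.2 ?_, abs_le.2 ?_⟩ <;> omega

/-- The field `lev` of `H460.Inp`. -/
theorem Fl.lev {Q : Measure Om} (hQ : Fl Q) {c : ℝ} (hc : 0 < c) :
    ∀ (B : ℕ) (ε : ℝ), 0 < ε → ∃ m0 : ℕ, ∀ m a b g' : ℕ, m0 ≤ m → m < a → a < b → b < g' →
      g' < m + B → g' ∈ {g | FineS Q c g} → Pr (Cfg (Dn b) (frd (Dn b) 0))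
        {h | (∀ x ∈ bx 0 (2 ^ m), x ∉ Tr.ClC (bx 0 (2 ^ a))ᶜ h) ∧
          ∃ y ∈ CluL 0 (bx 0 (2 ^ m)) h, y ∉ bx 0 (2 ^ a)} ≤ ε := by
  intro B ε hε
  obtain ⟨g0, h0⟩ := hQ c hc (B + 1) ε hε
  refine ⟨g0, fun m a b g hm hma hab hbg hgB hF => ?_⟩
  have e1 : (2 : ℤ) ^ g ≤ 2 ^ (B + m) := pow_le (by omega)
  have e2 : (2 : ℤ) ^ m ≤ 2 ^ g := pow_le (by omega)
  have e3 : (1 : ℤ) ≤ 2 ^ m := one_le_pow₀ (by norm_num)
  have e4 : (2 : ℤ) ^ 1 * 2 ^ a ≤ 2 ^ b := pow_add_le (by omega)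
  have e5 : (2 : ℤ) ^ 1 * 2 ^ b ≤ 2 ^ g := pow_add_le (by omega)
  have e6 : (2 : ℤ) ^ 1 * 2 ^ m ≤ 2 ^ a := pow_add_le (by omega)
  have hVf : (Dn b).Finite := PLAN.bx_finite _ _
  have h1 := h0 g (by omega) hF (2 ^ m - 1) (by omega) (by omega) (by
    refine e1.trans ?_
    rw [pow_add, pow_succ, mul_assoc]
    exact mul_le_mul_of_nonneg_left (by omega) (by positivity)) (Dn b) (PLAN.bx_mono (by omega))
    (PLAN.bx_mono (by omega))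
  refine (lev_pr (u := bump 0 (2 ^ m - 1)) hVf (PLAN.bx_mono (by omega)) (bump_mass 0 (by omega))
    fun v hv => bump_supp _ _ hv).trans ?_
  have := Ex_nonneg (S := Cfg (Dn b) (frd (Dn b) 0)) (F := fun h => evT (bump 0 (2 ^ m - 1)) h ^ 2)
    fun _ _ => sq_nonneg _
  linarith

/-- The field `null` of `H460.Inp`. -/
theorem Fl.nullF {Q : Measure Om} (hQ : Fl Q) {c : ℝ} (hc : 0 < c) :
    ∀ (B : ℕ) (ε : ℝ), 0 < ε → ∃ m0 : ℕ, ∀ j b g' : ℕ, m0 ≤ j → j + 9 ≤ b → b < g' →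
      g' < j + 7 + B → g' ∈ {g | FineS Q c g} → (lx (2 ^ (b - 1))).p (Ann 0 0 (6 * 2 ^ j)) ≤ ε := by
  intro B ε hε
  obtain ⟨m0, h0⟩ := hQ.null hc (B + 7) hε
  refine ⟨m0, fun j b g hj hjb hbg hgB hF => ?_⟩
  have e1 : (2 : ℤ) ^ 8 * 2 ^ j ≤ 2 ^ (b - 1) := pow_add_le (by omega)
  have e2 : (2 : ℤ) ^ 1 * 2 ^ (b - 1) ≤ 2 ^ g := pow_add_le (by omega)
  have e3 : (1 : ℤ) ≤ 2 ^ j := one_le_pow₀ (by norm_num)
  exact h0 j g hj (by omega) (by omega) hF (Hx (2 ^ (b - 1))) (sub_Hx (by omega))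
    ((Hx_sub _).trans (PLAN.bx_mono (by omega)))

end Vale.Agent.P153.R2.KPOS.H61
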