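import Vale.Agent.P153.R2.KPOS.H61.Null
import Vale.Agent.P153.Bd5.B5
import Vale.Agent.P153.Bd5.B9

/-!
# P153-R2, KPOS, block FLAT: the level of the outermost closed circuit

In a free domain, the probability that the outermost closed circuit of the class `8ℤ` has a level
different from `0` is at most `1 / 64` of the second moment of any probability weight inside. Hence
the open clusters of level `0` are controlled by the open clusters of the class `8ℤ`. Also: the
circuit event `Ann` of `{h ≥ 1}` and the second moment.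
-/

namespace Vale.Agent.P153.R2.KPOS.H61

open Set Relation
open Vale.Agent.P153
open Vale.Agent.P153.Topo (Conn adj_symm)
open Vale.Agent.P153.R2
open Vale.Agent.P153.R2.F2 (RV)
open Vale.Agent.P153.F.X (evT massT)
open Vale.Agent.P153.R2.KPOS.Tr
open scoped Classical

variable {V D T K W : Set Pt} {I : Pt → Set ℤ} {η h : Hg} {p v : Pt} {n R : ℤ} {u : Pt →₀ ℝ}

/-- Data symmetric about `c`: the mean is `c`. -/
theorem Ex_mean {c : ℤ} (dI : Dat D I) (hne : (Cfg D I).Nonempty)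
    (hI : ∀ x ∈ nb D, ∀ a ∈ I x, 2 * c - a ∈ I x) (hv : v ∈ D) :
    Ex (Cfg D I) (fun h => (h v : ℝ)) = c := by
  set f : Hg → Hg := fun h x => if x ∈ nb D then 2 * c - h x else h x with hf
  have hff : ∀ h, f (f h) = h := by
    intro h
    funext x
    rw [hf]
    dsimp only
    split_ifs <;> ring
  have hmaps : ∀ h ∈ Cfg D I, f h ∈ Cfg D I := by
    intro h hh
    refine ⟨fun x => ?_, fun x => ?_, fun x hx y hxy => ?_⟩
    · rw [hf]
      dsimp only
      split_ifs
      · have := (hh.1 x)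
        rw [Int.odd_iff] at this ⊢
        omega
      · exact hh.1 x
    · rw [hf]
      dsimp only
      split_ifs with h3
      · exact hI x h3 _ (hh.2.1 x)
      · exact hh.2.1 x
    · have h3 : x ∈ nb D := Or.inl hx
      have h4 : y ∈ nb D := by
        by_cases hy : y ∈ D
        · exact Or.inl hy
        · exact Or.inr ⟨hy, x, hx, hxy⟩
      rw [hf]
      dsimp only
      rw [if_pos h3, if_pos h4]
      have := hh.2.2 x hx y hxy
      rw [abs_le] at this ⊢
      omega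
  have hbij : BijOn f (Cfg D I) (Cfg D I) :=
    ⟨hmaps, fun a _ b _ hab => by rw [← hff a, hab, hff], fun h hh => ⟨f h, hmaps h hh, hff h⟩⟩
  have h2 := Ex_bij f hbij (fun h => (h v : ℝ))
  have h3 : Ex (Cfg D I) (fun a => ((f a v : ℤ) : ℝ)) =
      Ex (Cfg D I) (fun a => 2 * (c : ℝ) - (a v : ℝ)) := by
    refine Ex_congr fun a _ => ?_
    rw [hf]
    dsimp only
    have h4 : v ∈ nb D := Or.inl hv
    rw [if_pos h4]
    push_cast
    ring
  rw [h3, Ex_sub, Ex_const (Cfg_finite dI) hne] at h2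
  linarith

/-- Second moments. -/
theorem Ex_sq_ge {c : ℤ} (dI : Dat D I) (hne : (Cfg D I).Nonempty)
    (hI : ∀ x ∈ nb D, ∀ a ∈ I x, 2 * c - a ∈ I x) (hm : massT u = 1)
    (hs : ∀ v ∈ u.support, v ∈ D) : (c : ℝ) ^ 2 ≤ Ex (Cfg D I) (fun h => evT u h ^ 2) := by
  have h1 : Ex (Cfg D I) (fun h => evT u h) = c := by
    have e : (fun h : Hg => evT u h) = fun h => ∑ v ∈ u.support, u v * (h v : ℝ) := rfl
    rw [e, Ex_sum]
    have hm' : ∑ v ∈ u.support, u v = 1 := hm
    calc ∑ v ∈ u.support, Ex (Cfg D I) (fun h => u v * (h v : ℝ))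
        = ∑ v ∈ u.support, u v * (c : ℝ) := by
          refine Finset.sum_congr rfl fun v hv => ?_
          rw [Ex_const_mul, Ex_mean dI hne hI (hs v hv)]
      _ = c := by rw [← Finset.sum_mul, hm', one_mul]
  have h2 : Ex (Cfg D I) (fun h => 2 * (c : ℝ) * evT u h - (c : ℝ) ^ 2) ≤
      Ex (Cfg D I) (fun h => evT u h ^ 2) :=
    Ex_mono fun h _ => by nlinarith [sq_nonneg (evT u h - c)]
  rw [Ex_sub, Ex_const_mul, Ex_const (Cfg_finite dI) hne, h1] at h2
  nlinarith

/-- The level of the outermost closed circuit is `0` up to the second moment. -/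
theorem lev_ne (hW : W.Finite) (hTW : Tᶜ ⊆ W) (hm : massT u = 1)
    (hs : ∀ v ∈ u.support, v ∈ K ∧ ∀ y, Adj v y → y ∈ K) :
    64 * Pr (Cfg W (frd W 0)) (Bp T K fun L => L ≠ 0) ≤
      Ex (Cfg W (frd W 0)) (fun h => evT u h ^ 2) := by
  have hS : (Cfg W (frd W 0)).Finite := Cfg_finite (frd_dat hW 0)
  set B : Set Hg := Bp T K fun L => L ≠ 0 with hB
  set φ : Hg → Set Pt × Hg := fun h => (ClC T h, fun x => if x ∈ Dm T K h then 0 else h x) with hφ
  have hone : ∀ a ∈ Cfg W (frd W 0), ∀ b ∈ Cfg W (frd W 0), φ a = φ b → a ∈ B → b ∈ B := by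
    rintro a _ b _ hab ⟨h1, L, h2, h3, h4⟩
    have h5 : ClC T a = ClC T b := congrArg Prod.fst hab
    have h6 : Dm T K a = Dm T K b := by unfold Dm; rw [h5]
    have h7 := congrArg Prod.snd hab
    refine ⟨fun x hx => by rw [← h5]; exact h1 x hx, L, h2, h3, fun x hx y hy hxy => ?_⟩
    rw [← h5] at hx
    rw [← h6] at hy
    have h8 := congrFun h7 x
    rw [hφ] at h8
    simp only at h8
    rw [if_neg fun h9 => Dm_sub h9 hx, if_neg fun h9 => Dm_sub (h6 ▸ h9) hx] at h8
    rw [← h8]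
    exact h4 x hx y hy hxy
  rw [Pr_eq_Ex hS, ← Ex_const_mul]
  have key := Ex_le_of_fiber hS φ (fun h => - evT u h ^ 2) (fun h => - (64 * ind B h)) ?_ ?_
  · rw [Ex_neg, Ex_neg] at key
    linarith
  · intro a ha b hb hab
    have h1 : a ∈ B ↔ b ∈ B := ⟨hone a ha b hb hab, hone b hb a ha hab.symm⟩
    unfold ind
    by_cases h2 : a ∈ B
    · rw [if_pos h2, if_pos (h1.1 h2)]
    · rw [if_neg h2, if_neg fun h3 => h2 (h1.2 h3)]
  · intro h hh
    rw [Ex_neg, neg_le_neg_iff]
    by_cases hhB : h ∈ B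
    · obtain ⟨h1, L, h2, h3, h4⟩ := hhB
      have e : {b : Hg | φ b = φ h} =
          {g | ClC T g = ClC T h ∧ ∀ x, x ∉ Dm T K h → g x = h x} := by
        ext g
        rw [hφ]
        simp only [Set.mem_ofPred_eq, Prod.mk.injEq]
        constructor
        · rintro ⟨h5, h6⟩
          have h7 : Dm T K g = Dm T K h := by unfold Dm; rw [h5]
          refine ⟨h5, fun x hx => ?_⟩
          have h8 := congrFun h6 x
          rw [h7] at h8
          simpa [hx] using h8
        · rintro ⟨h5, h6⟩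
          have h7 : Dm T K g = Dm T K h := by unfold Dm; rw [h5]
          refine ⟨h5, ?_⟩
          funext x
          rw [h7]
          by_cases hx : x ∈ Dm T K h
          · simp [hx]
          · simp [hx, h6 x hx]
      have hne : (Cfg W (frd W 0) ∩ {b | φ b = φ h}).Nonempty := ⟨h, hh, rfl⟩
      rw [e, fib_eq hTW h3 h4 hh] at hne ⊢
      have h5 : ind B h = 1 := if_pos ⟨h1, L, h2, h3, h4⟩
      rw [h5]
      have h6 := Ex_sq_ge (u := u) (c := L) (Ji_dat hW hTW) hne (fun x hx a ha => ?_) hm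
        fun v hv => ?_
      · refine le_trans ?_ h6
        obtain ⟨k, hk⟩ := h3
        have hk0 : k ≠ 0 := by
          rintro rfl
          exact h2 (by rw [hk, mul_zero])
        have h7 : (1 : ℤ) ≤ k ^ 2 := by
          have := sq_nonneg k
          rcases lt_or_eq_of_le this with h8 | h8
          · omega
          · exact absurd (pow_eq_zero_iff (two_ne_zero)|>.1 h8.symm) hk0
        have h8 : (1 : ℝ) ≤ (k : ℝ) ^ 2 := by exact_mod_cast h7
        rw [hk]
        push_cast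
        nlinarith
      · by_cases h7 : x ∈ Vi T K h
        · have e2 : Ji T K L h x = univ := if_pos h7
          rw [e2]
          exact Set.mem_univ _
        · have h8 : x ∈ ebd (Vi T K h) := hx.resolve_left h7
          obtain ⟨-, y, hy, hyx⟩ := h8
          have h9 : x ∉ ClC T h := fun h4 => hy.2 ⟨hy.1, x, h4, adj_symm hyx⟩
          have h10 : x ∈ Dm T K h := Dm_step hy.1 hyx h9
          have h11 : x ∈ Ou T K h := by
            by_contra h5
            exact h7 ⟨h10, h5⟩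
          have e2 : Ji T K L h x = {L - 1, L + 1} := by
            unfold Ji
            rw [if_neg h7, if_pos h11]
          rw [e2, mem_pm] at ha ⊢
          rw [← ha, ← abs_neg]
          congr 1
          ring
      · obtain ⟨h7, h8⟩ := hs v hv
        refine ⟨⟨v, h7, Conn.refl (h1 v h7)⟩, ?_⟩
        rintro ⟨-, k, hk, hkx⟩
        exact h1 k (h8 k (adj_symm hkx)) hk
    · have h1 : ind B h = 0 := if_neg hhB
      rw [h1, mul_zero]
      exact Ex_nonneg fun _ _ => sq_nonneg _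

/-! ### Open clusters of level `0` -/

/-- Step through an edge which is not closed at level `0`. -/
def OpZ (h : Hg) (x y : Pt) : Prop := Adj x y ∧ ¬ (|h x| = 1 ∧ |h y| = 1)

/-- The vertices joined to `T` by such steps. -/
def ClZ (T : Set Pt) (h : Hg) : Set Pt := {y | ∃ x ∈ T, ReflTransGen (OpZ h) x y}

theorem OpZ.symm {x y : Pt} (hxy : OpZ h x y) : OpZ h y x :=
  ⟨adj_symm hxy.1, fun h1 => hxy.2 ⟨h1.2, h1.1⟩⟩

theorem ClZ_of_lev (hKC : ∀ x ∈ K, x ∉ ClC T h)
    (hL : ∀ x ∈ ClC T h, ∀ y ∈ Dm T K h, Adj x y → |h x - 0| = 1) : ∀ x ∈ K, x ∉ ClZ T h := by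
  rintro x hx ⟨z, hz, hzx⟩
  have key : ∀ y, ReflTransGen (OpZ h) z y → y ∉ Dm T K h := by
    intro y hzy
    induction hzy with
    | refl => exact fun h1 => Dm_sub h1 (sub_ClC T h hz)
    | @tail b c _ hbc ih =>
      intro hc
      have hb : b ∈ ClC T h := by
        by_contra h1
        exact ih (Dm_step hc (adj_symm hbc.1) h1)
      have h1 := hL b hb c hc hbc.1
      obtain ⟨m, hm, h2, h3⟩ := ClC_closed hb (Dm_sub hc) hbc.1
      have h4 : m = 0 := lev_unique hm (dvd_zero _) h2 h1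
      subst h4
      rw [sub_zero] at h1 h3
      exact hbc.2 ⟨h1, h3⟩
  exact key x hzx ⟨x, hx, Conn.refl (hKC x hx)⟩

/-- **Open clusters of level `0`** against the open clusters of the class `8ℤ`. -/
theorem open0_le (hW : W.Finite) (hTW : Tᶜ ⊆ W) (hT : Cn T) (hK : Cn K) (hm : massT u = 1)
    (hs : ∀ v ∈ u.support, v ∈ K ∧ ∀ y, Adj v y → y ∈ K) :
    Pr (Cfg W (frd W 0)) {h | ∃ x ∈ K, x ∈ ClZ T h} ≤
      Pr (Cfg W (frd W 0)) {h | ∃ x ∈ K, x ∈ ClC T h} +
        1 / 64 * Ex (Cfg W (frd W 0)) (fun h => evT u h ^ 2) := by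
  have h1 := lev_ne (T := T) (K := K) hW hTW hm hs
  have h2 : Pr (Cfg W (frd W 0)) {h | ∃ x ∈ K, x ∈ ClZ T h} ≤
      Pr (Cfg W (frd W 0)) {h | ∃ x ∈ K, x ∈ ClC T h} +
        Pr (Cfg W (frd W 0)) (Bp T K fun L => L ≠ 0) := by
    refine (Pr_mono fun h hh hE => ?_).trans (Pr_union_le _ _ _)
    by_cases h3 : ∃ x ∈ K, x ∈ ClC T h
    · exact Or.inl h3
    · refine Or.inr ?_
      push Not at h3
      obtain ⟨L, hL, h4⟩ := exists_level hT hK hTW hh h3
      refine ⟨h3, L, ?_, hL, h4⟩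
      rintro rfl
      obtain ⟨x, hx, hxZ⟩ := hE
      exact ClZ_of_lev h3 h4 x hx hxZ
  linarith

/-- The same for boxes. -/
theorem open0_box (hW : W.Finite) {z : Pt} {r1 r2 : ℤ} (hbW : bx z r2 ⊆ W) (hm : massT u = 1)
    (hs : ∀ v ∈ u.support, v ∈ bx z (r1 - 1)) :
    Pr (Cfg W (frd W 0)) {h | ∃ x ∈ bx z r1, x ∈ ClZ (bx z r2)ᶜ h} ≤
      Pr (Cfg W (frd W 0)) {h | ∃ x ∈ bx z r1, x ∈ ClC (bx z r2)ᶜ h} +
        1 / 64 * Ex (Cfg W (frd W 0)) (fun h => evT u h ^ 2) := by
  refine open0_le hW (by rwa [compl_compl]) (PLAN.cn_compl_bx z r2) (PLAN.cn_bx z r1) hm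
    fun v hv => ?_
  obtain ⟨h1, h2⟩ := hs v hv
  rw [abs_le] at h1 h2
  refine ⟨⟨abs_le.2 ⟨by omega, by omega⟩, abs_le.2 ⟨by omega, by omega⟩⟩, fun y hxy => ?_⟩
  rw [Topo.adj_iff] at hxy
  refine ⟨abs_le.2 ?_, abs_le.2 ?_⟩ <;> omega

/-! ### Circuits of `{h ≥ 1}` -/

open Vale.Agent.P153.F.RSW (Ann annR) in
/-- A circuit of `{h ≥ 1}` stops the clusters of `{h ≤ -1}`. -/
theorem sep_of_ann {a b t R : ℤ} (ht : 0 < t) (hR : 4 * t ≤ R) (hA : Ann a b t {x | 1 ≤ h x}) :
    Disjoint (RV (bx (2 * a, 2 * b) R) (dn h (-1))) (bx (2 * a, 2 * b) (2 * t)) := by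
  rw [Set.disjoint_left]
  rintro x ⟨y, hy, hyx⟩ ⟨hx1, hx2⟩
  dsimp only at hx1 hx2
  rw [abs_le] at hx1 hx2
  obtain ⟨o, ho⟩ := hA.base ht
  obtain ⟨w, hw1, hw2⟩ := ho.sep ht _ x y hyx.symm
    (by rw [F.RSW.mem_pr]; omega)
    (by
      by_contra hc
      apply hy
      constructor
      · dsimp only
        rw [abs_le]
        omega
      · dsimp only
        rw [abs_le]
        omega)
  have h1 := hw2.right_mem
  have h2 : 1 ≤ h w := h1.1
  have h3 : w ∈ F.RSW.pr (a - 2 * t) (a + 2 * t) (b - 2 * t) (b + 2 * t) := h1.2.1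
  rw [F.RSW.mem_pr] at h3
  rcases hw1 with h4 | h4
  · apply h4
    constructor
    · dsimp only
      rw [abs_le]
      omega
    · dsimp only
      rw [abs_le]
      omega
  · have h5 : h w ≤ -1 := h4
    omega

open Vale.Agent.P153.F.RSW (Ann) in
/-- **Null annuli**: circuits of `{h ≥ 1}` in a free domain. -/
theorem null_Ann (hV : V.Finite) {a b t : ℤ} (ht : 0 < t) (hW : bx (2 * a, 2 * b) (4 * t) ⊆ V)
    (hu : ∀ v, 0 ≤ u v) (hm : massT u = 1)
    (hs : ∀ v ∈ u.support, v ∈ bx (2 * a, 2 * b) (2 * t - 1)) :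
    Pr (Cfg V (frd V 0)) {h | Ann a b t {x | 1 ≤ h x}} ≤
      Ex (Cfg V (frd V 0)) (fun h => evT u h ^ 2) :=
  (Pr_mono fun _ _ hh => sep_of_ann ht le_rfl hh).trans (null_ann hV hW hu hm hs)

end Vale.Agent.P153.R2.KPOS.H61
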