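import Vale.Agent.P153.R2.F2.Expl
import Vale.Agent.P153.R2.KPOS.H398.Tr
import Vale.Agent.P153.Bd5.B19

/-!
# P153-R2, KPOS, block FLAT: circuits of `{h ≥ 1}` cost second moments

In a domain with free data at level `0`: the probability that the `{h ≤ -1}`-clusters of the outside
of the box `bx p R` do not reach `bx p n` is at most the second moment of any probability weight on
`bx p (n - 1)`.
-/

namespace Vale.Agent.P153.R2.KPOS.H61

open Set Relation
open Vale.Agent.P153
open Vale.Agent.P153.Topo (Conn adj_symm)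
open Vale.Agent.P153.R2
open Vale.Agent.P153.R2.F2 (Cx exa_in exa_out dat_exa Cx_out mem_Cx Cx_finite RV lv rem fib fib_iff
  ebd_rem rem_sub rem_finite NoCr compl_sub_RV RV_sub)
open Vale.Agent.P153.F.X (evT massT)
open Vale.Agent.P153.R2.KPOS.Tr (frd_dat frd_nonempty)
open scoped Classical

variable {V D : Set Pt} {η h : Hg} {p v : Pt} {n R : ℤ}

/-- Exact data at least `1`: the mean is at least `1`. -/
theorem Ex_ge_one (hD : D.Finite) (hne : (Cx D η).Nonempty) (hη : ∀ x ∈ ebd D, 1 ≤ η x)
    (hv : v ∈ D) : 1 ≤ Ex (Cx D η) (fun h => (h v : ℝ)) := by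
  obtain ⟨g₀, hg₀⟩ := hne
  rw [mem_Cx] at hg₀
  set η' : Hg := fun x => if x ∈ ebd D then 1 else η x with hη'
  have hodd : ∀ x, x ∉ D → Odd (η' x) := by
    intro x hx
    rw [hη']
    dsimp only
    split_ifs with h1
    · exact odd_one
    · rw [← hg₀.2.1 x hx]
      exact hg₀.1 x
  have hne' : (Cx D η').Nonempty := by
    refine ⟨fun x => if x ∈ D then 1 else η' x, mem_Cx.2 ⟨fun x => ?_, fun x hx => ?_,
      fun x hx y hxy => ?_⟩⟩
    · split_ifs with h1
      · exact odd_one
      · exact hodd x h1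
    · rw [if_neg hx]
    · rw [if_pos hx]
      by_cases hy : y ∈ D
      · rw [if_pos hy]
        norm_num
      · rw [if_neg hy]
        have : η' y = 1 := if_pos ⟨hy, x, hx, hxy⟩
        rw [this]
        norm_num
  have h1 : Ex (Cx D η') (fun h => (h v : ℝ)) ≤ Ex (Cx D η) (fun h => (h v : ℝ)) := by
    refine Cfg_le (dat_exa hD η') (dat_exa hD η) hne' ⟨g₀, mem_Cx.2 hg₀⟩ (fun x => ?_) _
      (fun a b hab => by exact_mod_cast hab v)
    by_cases hx : x ∈ D
    · rw [exa_in hx, exa_in hx]
      exact fun a _ b _ => ⟨trivial, trivial⟩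
    · rw [exa_out hx, exa_out hx]
      have h2 : η' x ≤ η x := by
        rw [hη']
        dsimp only
        split_ifs with h3
        · exact hη x h3
        · exact le_rfl
      intro a ha b hb
      rw [mem_singleton_iff] at ha hb
      rw [ha, hb]
      exact ⟨by rw [min_eq_left h2]; rfl, by rw [max_eq_right h2]; rfl⟩
  refine le_trans (le_of_eq ?_) h1
  -- the reflection about `1`
  set f : Hg → Hg := fun h x => if x ∈ nb D then 2 - h x else h x with hf
  have hff : ∀ h, f (f h) = h := by
    intro h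
    funext x
    rw [hf]
    dsimp only
    split_ifs <;> ring
  have hmaps : ∀ h ∈ Cx D η', f h ∈ Cx D η' := by
    intro h hh
    rw [mem_Cx] at hh ⊢
    refine ⟨fun x => ?_, fun x hx => ?_, fun x hx y hxy => ?_⟩
    · rw [hf]
      dsimp only
      split_ifs
      · have := (hh.1 x)
        rw [Int.odd_iff] at this ⊢
        omega
      · exact hh.1 x
    · rw [hf]
      dsimp only
      split_ifs with h3
      · have h4 : x ∈ ebd D := h3.resolve_left hx
        have h5 : η' x = 1 := if_pos h4
        rw [hh.2.1 x hx, h5]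
        norm_num
      · exact hh.2.1 x hx
    · have h3 : x ∈ nb D := Or.inl hx
      have h4 : y ∈ nb D := by
        by_cases hy : y ∈ D
        · exact Or.inl hy
        · exact Or.inr ⟨hy, x, hx, hxy⟩
      rw [hf]
      dsimp only
      rw [if_pos h3, if_pos h4]
      have := hh.2.2 x hx y hxy
      rw [abs_le] at this ⊢
      omega
  have hbij : BijOn f (Cx D η') (Cx D η') :=
    ⟨hmaps, fun a _ b _ hab => by rw [← hff a, hab, hff], fun h hh => ⟨f h, hmaps h hh, hff h⟩⟩
  have h2 := Ex_bij f hbij (fun h => (h v : ℝ))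
  have h3 : Ex (Cx D η') (fun a => ((f a v : ℤ) : ℝ)) =
      Ex (Cx D η') (fun a => 2 - (a v : ℝ)) := by
    refine Ex_congr fun a _ => ?_
    rw [hf]
    dsimp only
    have h4 : v ∈ nb D := Or.inl hv
    rw [if_pos h4]
    push_cast
    ring
  rw [h3, Ex_sub, Ex_const (Cx_finite hD _) hne'] at h2
  linarith

/-- Second moments. -/
theorem Ex_sq_ge_one (hD : D.Finite) (hne : (Cx D η).Nonempty) (hη : ∀ x ∈ ebd D, 1 ≤ η x)
    {u : Pt →₀ ℝ} (hu : ∀ v, 0 ≤ u v) (hm : massT u = 1) (hs : ∀ v ∈ u.support, v ∈ D) :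
    1 ≤ Ex (Cx D η) (fun h => evT u h ^ 2) := by
  have h1 : 1 ≤ Ex (Cx D η) (fun h => evT u h) := by
    have e : (fun h : Hg => evT u h) = fun h => ∑ v ∈ u.support, u v * (h v : ℝ) := rfl
    rw [e, Ex_sum]
    have hm' : ∑ v ∈ u.support, u v = 1 := hm
    rw [← hm']
    refine Finset.sum_le_sum fun v hv => ?_
    rw [Ex_const_mul]
    have := Ex_ge_one hD hne hη (hs v hv)
    calc u v = u v * 1 := (mul_one _).symm
      _ ≤ _ := mul_le_mul_of_nonneg_left this (hu v)
  have h2 : Ex (Cx D η) (fun h => 2 * evT u h - 1) ≤ Ex (Cx D η) (fun h => evT u h ^ 2) :=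
    Ex_mono fun h _ => by nlinarith [sq_nonneg (evT u h - 1)]
  rw [Ex_sub, Ex_const_mul, Ex_const (Cx_finite hD _) hne] at h2
  linarith

/-- **Null annuli.** -/
theorem null_ann (hV : V.Finite) (hW : bx p R ⊆ V) {u : Pt →₀ ℝ} (hu : ∀ v, 0 ≤ u v)
    (hm : massT u = 1) (hs : ∀ v ∈ u.support, v ∈ bx p (n - 1)) :
    Pr (Cfg V (frd V 0)) {h | Disjoint (RV (bx p R) (dn h (-1))) (bx p n)} ≤
      Ex (Cfg V (frd V 0)) (fun h => evT u h ^ 2) := by
  set W := bx p R with hWd
  have hWf : W.Finite := hV.subset hW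
  have hf := Cfg_finite (frd_dat hV 0)
  set B : Set Hg := {h | Disjoint (RV W (dn h (-1))) (bx p n)} with hB
  set P : ℤ → Prop := fun m => m ≤ -1 with hP
  have hfibB : ∀ a b : Hg, fib W P a = fib W P b → (a ∈ B ↔ b ∈ B) := by
    intro a b hab
    exact F2.fib_event (P := P) (Q := fun C => Disjoint C (bx p n)) hab
  rw [Pr_eq_Ex hf]
  have key := Ex_le_of_fiber hf (fib W P) (fun h => - evT u h ^ 2) (fun h => - ind B h) ?_ ?_
  · rw [Ex_neg, Ex_neg] at key
    linarith
  · intro a _ b _ hab
    have := hfibB a b hab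
    unfold ind
    by_cases h1 : a ∈ B
    · rw [if_pos h1, if_pos (this.1 h1)]
    · rw [if_neg h1, if_neg fun h2 => h1 (this.2 h2)]
  · intro a ha
    rw [Ex_neg, neg_le_neg_iff]
    by_cases haB : a ∈ B
    · set D := rem W P a with hD
      have hDW : D ⊆ W := rem_sub _ _ _
      have e1 : Cfg V (frd V 0) ∩ {b | fib W P b = fib W P a} = Cx D a := by
        have e2 : Cfg V (frd V 0) ∩ {b | fib W P b = fib W P a} =
            Cfg V (frd V 0) ∩ {b | ∀ x, x ∉ D → b x = a x} := by
          ext b
          simp only [mem_inter_iff, mem_ofPred_eq, fib_iff]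
          rfl
        rw [e2, Cfg_agree ha (hDW.trans hW)]
        congr 1
        funext x
        by_cases hx : x ∈ D
        · rw [if_pos hx, exa_in hx]
          unfold frd
          rw [if_pos (hW (hDW hx))]
        · rw [if_neg hx, exa_out hx]
      have hne : (Cx D a).Nonempty := by
        rw [← e1]
        exact ⟨a, ha, rfl⟩
      have h1 : ind B a = 1 := if_pos haB
      rw [e1, h1]
      refine Ex_sq_ge_one (hWf.subset hDW) hne (fun y hy => ?_) hu hm fun v hv => ?_
      · obtain ⟨-, h2, -⟩ := ebd_rem hy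
        have h3 := ha.1 y
        rw [Int.odd_iff] at h3
        have h4 : ¬ a y ≤ -1 := h2
        omega
      · have hvn := hs v hv
        by_contra hvD
        have h2 : v ∈ nb (RV W (dn a (-1))) := by
          by_contra h3
          exact hvD h3
        have h5 : Disjoint (RV W (dn a (-1))) (bx p n) := haB
        rcases h2 with h3 | ⟨_, z, hz, hzv⟩
        · exact Set.disjoint_left.1 h5 h3 (PLAN.bx_mono (by omega) hvn)
        · refine Set.disjoint_left.1 h5 hz ?_
          have := adj_symm hzv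
          rw [Topo.adj_iff] at this
          have h6 : |v.1 - p.1| ≤ n - 1 := hvn.1
          have h7 : |v.2 - p.2| ≤ n - 1 := hvn.2
          rw [abs_le] at h6 h7
          constructor
          · rw [abs_le]
            omega
          · rw [abs_le]
            omega
    · have h1 : ind B a = 0 := if_neg haB
      rw [h1]
      exact Ex_nonneg fun _ _ => sq_nonneg _

end Vale.Agent.P153.R2.KPOS.H61
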